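import Vale.Agent.P216.LargeSymmetry
import Vale.Agent.P216.QSphere
import Vale.Agent.P216.Onto.Manifold

/-!
# P216: infinitely many closed geodesics for metrics with a circle symmetry
-/

namespace Vale.Agent.Results.P216.CircleSymmetry

open Vale.Agent.P216 Set Function
open scoped Quaternion Manifold ContDiff

/-- There are infinitely many images of closed geodesics. -/
def InfinitelyMany (M : Type) [MetricSpace M] : Prop := {C : Set M | IsGeodesicImage C}.Infinite

/-- Every map homotopic to the identity is onto. -/
def IdOnto (M : Type) [TopologicalSpace M] : Prop :=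
  ∀ f : C(M, M), (ContinuousMap.id M).Homotopic f → Surjective f

/-- `M` carries the structure of a smooth manifold without boundary. -/
def ClosedSmooth (M : Type) [TopologicalSpace M] : Prop :=
  ∃ (n : ℕ) (_ : ChartedSpace (EuclideanSpace ℝ (Fin n)) M), IsManifold (𝓡 n) ∞ M

theorem IdOnto.of_or {M : Type} [TopologicalSpace M] [T2Space M] [CompactSpace M]
    (h : IdOnto M ∨ ClosedSmooth M) : IdOnto M :=
  h.elim id fun ⟨n, _, _⟩ f hf => Onto.surjective_of_homotopic_id_manifold (n := n) f hf

/-- `UniqueMid M r`: points at distance less than `r` have exactly one midpoint. `UniqueExt M r`: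
an end and the midpoint of a pair at distance less than `r` determine the other end.
`IsGeodesicImage C`: `C` is the range of a periodic curve of constant positive speed which realises
the distance near every time.

Infinitely many closed geodesics follow from: (1) an isometric torus action with disconnected fixed
set; (2) an isometric action of a connected group with a central element which acts as an involution
with a fixed point, on a space which is a smooth manifold or on which every map homotopic to the
identity is onto; (3) on such a space, a nontrivial isometric circle action with a fixed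
point, or, with no assumption on fixed points, a faithful isometric action of the two-torus, or one
of the unit quaternions with kernel within plus or minus one. (4) The hypotheses are not empty. -/
theorem result :
    (∀ (M : Type) [MetricSpace M] [CompactSpace M] [ConnectedSpace M] (r : ℝ), 0 < r →
      UniqueMid M r →
      ∀ (k : ℕ) [MulAction (Fin k → Circle) M] [ContinuousSMul (Fin k → Circle) M],
        (∀ φ : Fin k → Circle, Isometry fun x : M => φ • x) →
        ¬ IsPreconnected {x : M | ∀ φ : Fin k → Circle, φ • x = x} →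
        InfinitelyMany M) ∧
    (∀ (M : Type) [MetricSpace M] [CompactSpace M] [ConnectedSpace M] (r : ℝ), 0 < r →
      UniqueMid M r → UniqueExt M r →
      (IdOnto M ∨ ClosedSmooth M) →
      ∀ (G : Type) [Group G] [TopologicalSpace G] [IsTopologicalGroup G] [ConnectedSpace G]
        [MulAction G M] [ContinuousSMul G M], (∀ φ : G, Isometry fun x : M => φ • x) →
        ∀ z : G, (∀ φ : G, ∀ x : M, z • φ • x = φ • z • x) → (∀ x : M, z • z • x = x) →
        (∃ a : M, z • a = a) → (∃ b : M, z • b ≠ b) →
        InfinitelyMany M) ∧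
    (∀ (M : Type) [MetricSpace M] [CompactSpace M] [ConnectedSpace M] (r : ℝ), 0 < r →
      UniqueMid M r → UniqueExt M r →
      (IdOnto M ∨ ClosedSmooth M) →
      ∀ [MulAction Circle M] [ContinuousSMul Circle M],
        (∀ φ : Circle, Isometry fun x : M => φ • x) →
        (∃ a : M, ∀ φ : Circle, φ • a = a) → (∃ (φ : Circle) (b : M), φ • b ≠ b) →
        InfinitelyMany M) ∧
    (∀ (M : Type) [MetricSpace M] [CompactSpace M] [ConnectedSpace M] (r : ℝ), 0 < r →
      UniqueMid M r → UniqueExt M r →
      (IdOnto M ∨ ClosedSmooth M) →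
      (∀ [MulAction (Fin 2 → Circle) M] [ContinuousSMul (Fin 2 → Circle) M],
        (∀ φ : Fin 2 → Circle, Isometry fun x : M => φ • x) →
        (∀ φ : Fin 2 → Circle, (∀ x : M, φ • x = x) → φ = 1) →
        InfinitelyMany M) ∧
      (∀ [MulAction ↥(Metric.sphere (0 : ℍ[ℝ]) 1) M]
          [ContinuousSMul ↥(Metric.sphere (0 : ℍ[ℝ]) 1) M],
        (∀ φ : ↥(Metric.sphere (0 : ℍ[ℝ]) 1), Isometry fun x : M => φ • x) →
        (∀ φ : ↥(Metric.sphere (0 : ℍ[ℝ]) 1), (∀ x : M, φ • x = x) → φ.1 = 1 ∨ φ.1 = -1) →
        InfinitelyMany M)) ∧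
    (∃ (M : Type) (_ : MetricSpace M) (_ : CompactSpace M) (_ : ConnectedSpace M) (r : ℝ)
        (_ : MulAction ↥(Metric.sphere (0 : ℍ[ℝ]) 1) M)
        (_ : ContinuousSMul ↥(Metric.sphere (0 : ℍ[ℝ]) 1) M),
      0 < r ∧ UniqueMid M r ∧ UniqueExt M r ∧
      (∀ φ : ↥(Metric.sphere (0 : ℍ[ℝ]) 1), Isometry fun x : M => φ • x) ∧
      (∀ φ : ↥(Metric.sphere (0 : ℍ[ℝ]) 1), (∀ x : M, φ • x = x) → φ.1 = 1 ∨ φ.1 = -1) ∧
      IdOnto M) ∧
    (∃ (M : Type) (_ : MetricSpace M) (_ : CompactSpace M) (_ : ConnectedSpace M) (r : ℝ)
        (_ : MulAction (Fin 1 → Circle) M) (_ : ContinuousSMul (Fin 1 → Circle) M),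
      0 < r ∧ UniqueMid M r ∧ UniqueExt M r ∧
      (∀ φ : Fin 1 → Circle, Isometry fun x : M => φ • x) ∧
      ¬ IsPreconnected {x : M | ∀ φ : Fin 1 → Circle, φ • x = x} ∧
      IdOnto M) := by
  refine ⟨fun M _ _ _ r hr hM k _ _ hiso hdisc => ?_, ?_, ?_, ?_, ?_, ?_⟩
  · exact infinite_geodesics_torus hM hr hiso hdisc
  · intro M _ _ _ r hr hM hext hor G _ _ _ _ _ _ hiso z hz hzz ⟨a, ha⟩ ⟨b, hb⟩
    exact infinite_geodesics_involution hM hext hr hiso (IdOnto.of_or hor) z hz hzz ha hb
  · intro M _ _ _ r hr hM hext hor _ _ hiso ⟨a, ha⟩ ⟨φ, b, hb⟩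
    exact infinite_geodesics_circle hM hext hr hiso
      (IdOnto.of_or hor) ha hb
  · intro M _ _ _ r hr hM hext hor
    have hs := IdOnto.of_or hor
    refine ⟨?_, ?_⟩
    · intro _ _ hiso heff
      exact infinite_geodesics_two_torus hM hext hr hiso hs heff
    · intro _ _ hiso heff
      exact infinite_geodesics_quaternion hM hext hr hiso hs heff
  · exact ⟨QSph, inferInstance, inferInstance, inferInstance, Real.pi, inferInstance,
      inferInstance, Real.pi_pos, uniqueMid_qsph, uniqueExt_qsph, isometry_smul_qsph,
      effective_qsph, surjective_of_homotopic_id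
        (Continuous.homeoOfEquivCompactToT2 (f := toQSph) continuous_toQSph).symm⟩
  · exact ⟨Sph, inferInstance, inferInstance, inferInstance, Real.pi, inferInstance, inferInstance,
      Real.pi_pos, uniqueMid_sph, uniqueExt_sph, isometry_smul_sph, disconnected_fixed_sph,
      surjective_of_homotopic_id
        (Continuous.homeoOfEquivCompactToT2 (f := toSph) continuous_toSph).symm⟩

end Vale.Agent.Results.P216.CircleSymmetry
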